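import Vale.Agent.P242.CDDefs
import Vale.Agent.P242.Bdl.B1

open MeasureTheory Set Metric Filter Topology
open scoped ENNReal

universe u

namespace Vale.Agent.Results.P242.HilbertEmbedding

open Vale.Agent.P242

/-- Some neighbourhood of `p` admits a bi-Lipschitz embedding `F` into the Hilbert space `ℓ²`
of square-summable real sequences. -/
def EmbedsInHilbertNear {X : Type u} [MetricSpace X] (p : X) : Prop :=
  ∃ (U : Set X) (L : ℝ) (F : X → ℕ → ℝ), IsOpen U ∧ p ∈ U ∧ 1 ≤ L ∧
    (∀ x ∈ U, Summable fun k => F x k ^ 2) ∧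
    ∀ x ∈ U, ∀ z ∈ U, L⁻¹ * dist x z ≤ √(∑' k, (F x k - F z k) ^ 2) ∧
      √(∑' k, (F x k - F z k) ^ 2) ≤ L * dist x z

/-- Let `(X, d)` be a complete separable metric space whose `n`-dimensional Hausdorff measure is
finite on balls, has full support and satisfies the curvature-dimension condition `CD(K, n)`,
`n ≥ 2`. Then every point of `X` has a neighbourhood which embeds bi-Lipschitzly in Hilbert
space. -/
theorem result {X : Type u} [MetricSpace X] [CompleteSpace X] [TopologicalSpace.SeparableSpace X]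
    [MeasurableSpace X] [BorelSpace X] (K : ℝ) (n : ℕ) (hn : 2 ≤ n)
    (hfin : ∀ (x : X) (r : ℝ), (μH[(n : ℝ)] : Measure X) (ball x r) < ∞)
    (hsupp : ∀ (x : X) (r : ℝ), 0 < r → 0 < (μH[(n : ℝ)] : Measure X) (ball x r))
    (hCD : IsCD K n (μH[(n : ℝ)] : Measure X)) (p : X) : EmbedsInHilbertNear p := by
  have hsc : SecondCountableTopology X := UniformSpace.secondCountable_of_separable X
  have hn1 : (1 : ℝ) < n := by
    have : (2 : ℝ) ≤ n := by exact_mod_cast hn
    linarith
  obtain ⟨Q, hQ0, hQ1, hQN⟩ := exists_Q (N := (n : ℝ))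
  obtain ⟨R₀, hR₀, h⟩ := contr_of_CD hfin hsupp hCD hn1 hQ0 hQ1
  obtain ⟨r, C, F, hr, hC, hF⟩ := embed_of_contr h hR₀ hfin hsupp (by linarith) hQ0 hQ1 hQN
    (b := 16 ^ n / Q ^ 2) (by positivity) (fun x r hr hrR => by
      rw [Real.rpow_natCast]
      exact hausdorff_upper h hfin hsupp hQ0 hQ1.le x hr hrR) p
  refine ⟨ball p r, C, fun x k => F x k, isOpen_ball, mem_ball_self hr, hC,
    fun x _ => ellTwo_summable (F x), fun x hx z hz => ?_⟩
  rw [← ellTwo_dist]
  exact hF x hx z hz

end Vale.Agent.Results.P242.HilbertEmbedding
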